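import Vale.Agent.P281.H167.GM.Core
import Vale.Agent.P281.H713.SB.Iface

/-! P281, theorem SB, block X: `Yau + Bochner` for the degenerate densities `(Q + δ)^(1/m) e^φ`
(the estimate of theorem GM, for one `ε = ε(s)`). -/

open scoped Manifold ContDiff ComplexOrder Topology
open Complex Set Filter MeasureTheory

set_option linter.all false

noncomputable section

namespace Vale.Agent.P281.H156.SB

open Vale.Agent.P272.K Vale.Agent.P272.K.AMP Vale.Agent.P299.D Vale.Agent.P299 Vale.Agent.P299.H882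
open Vale.Agent.P281.H167.SA Vale.Agent.P281.H167.GM
open Vale.Agent.P299.H937 (normTen nTen)
open Vale.Agent.P299.H212 (nzSet)
open INT (IsDensity intX IsClosedForm)
open Vale.Agent.P281.H713.SB (thB chiB curvB XPartB)

variable {n : ℕ} {X : Type} [TopologicalSpace X] [ChartedSpace (Cm n) X]
  [IsManifold 𝓘(ℂ, Cm n) ω X]
  {w χ θ β α G : D.FormM n X} {φ : Chart n X → Cm n → ℝ} {m : ℕ} {ρ : X → ℝ}

/-- the estimate `a s^ν ≤ K ∫ (β + s θ + ε χ)^(n-1) ∧ i∂∂̄φ` if `∂u` does not vanish on the kernel of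
`θ` at `x` -/
theorem core_est [T2Space X] [CompactSpace X] [ConnectedSpace X] (coh : CohPart)
    (mass : MassPart)
    (hχ : IsKahler χ) (hφ : IsCanonicalMetric φ) (hm : 0 < m) (hρ : SmoothFn (n := n) ρ)
    (h0 : ∀ x, 0 ≤ ρ x) {C : ℝ} (hC : CurvGe φ m ρ C χ)
    (hθ : IsClosedForm θ) (hβ : IsClosedForm β)
    (hθ0 : ∀ e x, At e x → (θ e (e x)).PosSemidef) (hβ0 : ∀ e x, At e x → (β e (e x)).PosSemidef)
    {ν : ℕ}
    {q : ℝ} (hq : 0 ≤ q) {V : Set X} (hV : IsOpen V) {u : X → ℝ}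
    (hS : ∀ (g Θ : D.FormM n X), IsKahler g → IsForm Θ →
      (∀ e x, At e x → (Θ e (e x)).PosSemidef) →
      (∀ e x, At e x → (Θ e (e x) + D.ric g e (e x)).PosSemidef) →
      ∃ S S0 : X → ℝ, SmoothFn (n := n) S ∧ SmoothFn (n := n) S0 ∧ (∀ x, 0 ≤ S x) ∧
        (∀ x, 0 ≤ S0 x) ∧ (∀ x ∈ V, 0 < S x ∧ 0 < S0 x ∧ u x = Real.log (S x) - Real.log (S0 x)) ∧
        BochIneqT Θ g q S ∧ BochIneqT Θ g q S0)
    {e : Chart n X} {x : X} (hx : At e x) (hxV : x ∈ V) (hρx : 0 < ρ x) (hP : (β e (e x)).PosDef)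
    (hrk : (θ e (e x)).rank = ν) (v : Fin n → ℂ) (hv : ∀ j, ∑ i, v i * θ e (e x) i j = 0)
    (hne : ∑ i, xi u e (e x) i * v i ≠ 0) :
    ∃ a K : ℝ, 0 < a ∧ 0 ≤ K ∧ ∀ s ε : ℝ, 0 < s → 0 < ε →
      a * s ^ ν ≤ K * mixX (addF (addF β s θ) ε χ) (cF φ) := by
  haveI : Nonempty X := ⟨x⟩
  have hχ0 : ∀ e x, At e x → (χ e (e x)).PosSemidef := fun e x hx => (hχ.posDef e x hx).posSemidef
  have hC' : CurvGe φ m ρ (max C 0) χ := hC.mono h0 (le_max_left _ _) hχ0
  have hCp : 0 ≤ max C 0 := le_max_right _ _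
  set Cp := max C 0 with hCpdef
  obtain ⟨U0, c0, hU0, hw, hlw⟩ := exists_yauC H882.yau hχ hφ
  set w := addH χ U0 with hwdef
  have hwH := hw.toIsHermitian
  -- the Bochner functions
  have hSg : ∀ (g : D.FormM n X) (δ c : ℝ), IsKahler g → 0 < δ →
      (∀ e x, At e x → Real.log (g e (e x)).det.re = phiD φ m ρ δ e (e x) + c) →
      ∃ S S0 : X → ℝ, SmoothFn (n := n) S ∧ SmoothFn (n := n) S0 ∧ (∀ x, 0 ≤ S x) ∧
        (∀ x, 0 ≤ S0 x) ∧ (∀ x ∈ V, 0 < S x ∧ 0 < S0 x ∧ u x = Real.log (S x) - Real.log (S0 x)) ∧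
        BochIneqT (thP φ m ρ Cp δ χ) g q S ∧ BochIneqT (thP φ m ρ Cp δ χ) g q S0 := by
    intro g δ c hg hδ hlg
    have hcan := isCanonical_phiD (m := m) hφ hρ h0 hδ
    refine hS g (thP φ m ρ Cp δ χ) hg (isForm_thP hφ hρ h0 Cp hδ hχ.toIsHermitian.isForm)
      (fun e x hx => thP_psd hC' hδ hx) fun e x hx => ?_
    rw [ric_of_logdet ⟨c, hlg⟩ hcan hx]
    unfold thP
    rw [hx.left_inv]
    have h2 : 0 ≤ Cp * (δ / (ρ x + δ)) := by
      have := h0 x
      positivity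
    have h3 := psd_real_smul (hχ0 e x hx) h2
    have e1 : cHess (phiD φ m ρ δ e) (e x) + ((Cp * (δ / (ρ x + δ)) : ℝ) : ℂ) • χ e (e x) +
        -cHess (phiD φ m ρ δ e) (e x) = ((Cp * (δ / (ρ x + δ)) : ℝ) : ℂ) • χ e (e x) := by abel
    rw [e1]
    exact h3
  -- smoothness of `u` on `V`
  obtain ⟨S1, S2, hS1, hS2, hS12⟩ : ∃ S S0 : X → ℝ, SmoothFn (n := n) S ∧ SmoothFn (n := n) S0 ∧
      (∀ x ∈ V, 0 < S x ∧ 0 < S0 x ∧ u x = Real.log (S x) - Real.log (S0 x)) := by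
    have hcan := isCanonical_phiD (m := m) hφ hρ h0 one_pos
    obtain ⟨U1, c1, hU1, hg1, hl1⟩ := exists_yauC H882.yau hχ hcan
    obtain ⟨S, S0, h1, h2, -, -, h3, -, -⟩ := hSg _ 1 c1 hg1 one_pos hl1
    exact ⟨S, S0, h1, h2, h3⟩
  have husm : ∀ (e' : Chart n X) y, At e' y → y ∈ V →
      ContDiffAt ℝ ∞ (fun z => u (e'.symm z)) (e' y) := by
    intro e' y hy hyV
    have h1 : ContDiffAt ℝ ∞ (fun z => Real.log (S1 (e'.symm z)) - Real.log (S2 (e'.symm z)))
        (e' y) := by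
      refine ((hS1 e' y hy).log ?_).sub ((hS2 e' y hy).log ?_)
      · rw [hy.left_inv]; exact (hS12 y hyV).1.ne'
      · rw [hy.left_inv]; exact (hS12 y hyV).2.1.ne'
    refine h1.congr_of_eventuallyEq ?_
    have h2 : ∀ᶠ z in 𝓝 (e' y), e'.symm z ∈ V := by
      have : ContinuousAt e'.symm (e' y) := e'.continuousAt_symm (e'.map_source hy.2)
      refine this.eventually_mem ?_
      rw [hy.left_inv]; exact hV.mem_nhds hyV
    filter_upwards [h2] with z hz
    exact (hS12 _ hz).2.2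
  have hucont : ContinuousOn u V := by
    intro y hy
    have hy' := at_chartAt (n := n) y
    have h1 := (husm _ y hy' hy).continuousAt
    have h2 : ContinuousAt (fun y' => u ((chartAt (Cm n) y).symm (chartAt (Cm n) y y'))) y :=
      h1.comp (f := chartAt (Cm n) y) ((chartAt (Cm n) y).continuousAt hy'.2)
    refine (h2.congr ?_).continuousWithinAt
    filter_upwards [(chartAt (Cm n) y).open_source.mem_nhds hy'.2] with y' hy''
    rw [(chartAt (Cm n) y).left_inv hy'']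
  have hxic : ∀ i, ContinuousAt (fun z => xi u e z i) (e x) := fun i =>
    (contDiffAt_dz (m := 0) (r := 1) ((ofReal_contDiffAt (husm e x hx hxV)).of_le
      (by norm_cast)) (by simp)).continuousAt
  obtain ⟨d0, hd0, hlow⟩ := lower_boundL hθ hβ hθ0 hβ0 hχ hw hx hP hxic v hv hne
  rw [hrk] at hlow
  have cρ := sm_continuous hρ
  have hρn : ∀ᶠ y in 𝓝 x, ρ x / 2 < ρ y :=
    cρ.continuousAt.eventually (lt_mem_nhds (half_lt_self hρx))
  -- the neighbourhood `N` of `x`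
  obtain ⟨N, hN, hNo, hxN⟩ := mem_nhds_iff.1 ((hlow.and (hV.mem_nhds hxV)).and hρn)
  obtain ⟨η, hηs, hη1, hη01⟩ := exists_tsupport_one_of_isOpen_isClosed hNo
    isClosed_closure.isCompact isClosed_singleton (Set.singleton_subset_iff.2 hxN)
  have hηx : η x = 1 := hη1 rfl
  have hKc : IsCompact (tsupport η) := (isClosed_tsupport η).isCompact
  have hKV : ∀ y ∈ tsupport η, y ∈ V := fun y hy => (hN (hηs hy)).1.2
  have hxK : x ∈ tsupport η := subset_tsupport _ (by simp [hηx])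
  obtain ⟨Cu, hCu⟩ := hKc.exists_bound_of_continuousOn (hucont.mono hKV)
  have hηc : Continuous fun y => η y := η.continuous
  have hIη : 0 < J w (fun y => η y) :=
    J_pos_of hwH hηc (fun y => (hη01 y).1) (x := x) (by rw [hηx]; exact one_pos)
  set H := J w (fun y => η y) with hH
  set r0 := ρ x / 2 with hr0
  have hr0p : 0 < r0 := half_pos hρx
  set K1 : ℝ := (Real.exp ((m : ℝ)⁻¹ * Real.log r0))⁻¹ *
        (n * J w (fun x => Real.exp ((m : ℝ)⁻¹ * Real.log (ρ x + 1)))) * (Real.pi * (q + q)) with hK1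
  have hK10 : 0 ≤ K1 := by
    have h1 : 0 ≤ J w (fun x => Real.exp ((m : ℝ)⁻¹ * Real.log (ρ x + 1))) :=
      J_nonneg hwH fun x => (Real.exp_pos _).le
    have := Real.pi_pos
    positivity
  -- the estimate for `ε > 0`
  have step1 : ∀ s ε : ℝ, 0 < s → 0 < ε →
      d0 * s ^ ν / (1 + Cu ^ 2) * H ^ 2 ≤ K1 * mixX (addF (addF β s θ) ε χ) (cF φ) := by
    intro s ε hs hε
    refine le_of_forall_pos_le_add fun κ hκ => ?_
    set κ' : ℝ := κ / (K1 + 1) with hκ'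
    have hκ'p : 0 < κ' := by positivity
    have hG : IsKahler (addF (addF β s θ) ε χ) := isKahler_G hχ hθ hβ hθ0 hβ0 hs.le hε
    have hκ2 : 0 < κ' * ε / (Cp + 1) := by positivity
    obtain ⟨δ₀, hδ₀, hδm⟩ := mass n X (addF (addF β s θ) ε χ) hG φ hφ m hm ρ hρ h0 ⟨x, hρx⟩
      (Cp / ε) (hC'.toG h0 hCp hθ0 hβ0 hs.le hε) (κ' * ε / (Cp + 1)) hκ2
    set δ := min δ₀ 1 with hδdef
    have hδ : 0 < δ := lt_min hδ₀ one_pos
    have hcan := isCanonical_phiD (m := m) hφ hρ h0 hδ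
    obtain ⟨U, c, hU, hg, hlg⟩ := exists_yauC H882.yau hG hcan
    have hE := hδm δ hδ (min_le_left _ _) U c hU hg hlg
    obtain ⟨S, S0, hSs, hS0s, hSn, hS0n, hSV, hB, hB0⟩ := hSg _ δ c hg hδ hlg
    have hmain := main_est coh hχ hφ hρ h0 hCp hC' hθ hβ hθ0 hβ0 hw hlw hq hV hs.le hε hδ
      (min_le_right _ _) hU hg hlg hSs hS0s hSn hS0n hSV hB hB0 (e := e) hηc hη01 hxK
      (κ := d0 * s ^ ν) (r0 := r0) (Cu := Cu) (by positivity) hr0p (fun y hy => by
        obtain ⟨⟨⟨h1, h2⟩, h3⟩, h4⟩ := hN (hηs hy)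
        refine ⟨h1, h3, h4.le, ?_, h2 s ε hs.le hε.le⟩
        have := hCu y hy
        rwa [Real.norm_eq_abs] at this)
    have e1 : Cp / ε * J (addH (addF (addF β s θ) ε χ) U) (fun x => δ / (ρ x + δ) *
            trX (addH (addF (addF β s θ) ε χ) U) (addF (addF β s θ) ε χ) x) ≤ κ' := by
      have h1 := mul_le_mul_of_nonneg_left hE (by positivity : 0 ≤ Cp / ε)
      refine h1.trans ?_
      have h2 : Cp / ε * (κ' * ε / (Cp + 1)) = κ' * (Cp / (Cp + 1)) := by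
        field_simp
      rw [h2]
      have h3 : Cp / (Cp + 1) ≤ 1 := by
        rw [div_le_one (by positivity)]; linarith
      calc κ' * (Cp / (Cp + 1)) ≤ κ' * 1 := mul_le_mul_of_nonneg_left h3 hκ'p.le
        _ = κ' := mul_one _
    have h5 : K1 * κ' ≤ κ := by
      rw [hκ']
      have : K1 * (κ / (K1 + 1)) = κ * (K1 / (K1 + 1)) := by ring
      rw [this]
      have h3 : K1 / (K1 + 1) ≤ 1 := by
        rw [div_le_one (by positivity)]; linarith
      calc κ * (K1 / (K1 + 1)) ≤ κ * 1 := mul_le_mul_of_nonneg_left h3 hκ.le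
        _ = κ := mul_one _
    calc d0 * s ^ ν / (1 + Cu ^ 2) * H ^ 2 ≤ _ := hmain
      _ = K1 * (mixX (addF (addF β s θ) ε χ) (cF φ) +
          Cp / ε * J (addH (addF (addF β s θ) ε χ) U) (fun x => δ / (ρ x + δ) *
            trX (addH (addF (addF β s θ) ε χ) U) (addF (addF β s θ) ε χ) x)) := by
          rw [hK1]; ring
      _ ≤ K1 * (mixX (addF (addF β s θ) ε χ) (cF φ) + κ') :=
          mul_le_mul_of_nonneg_left (by linarith) hK10
      _ ≤ K1 * mixX (addF (addF β s θ) ε χ) (cF φ) + κ := by rw [mul_add]; linarith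
  refine ⟨d0 / (1 + Cu ^ 2) * H ^ 2, K1, by positivity, hK10, fun s ε hs hε => ?_⟩
  refine le_trans (le_of_eq ?_) (step1 s ε hs hε)
  ring

/-- the hypothesis on the curvature in the form used for theorem GM -/
lemma curvGe_of (hφ : IsCanonicalMetric φ) (hρ : SmoothFn (n := n) ρ) (h0 : ∀ x, 0 ≤ ρ x) {C : ℝ}
    (h : ∀ δ : ℝ, 0 < δ → ∀ e x, At e x → (thB w φ ρ m C δ e (e x)).PosSemidef) :
    CurvGe φ m ρ C w := by
  intro δ hδ e x hx
  have h1 := h δ hδ e x hx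
  have h2 : ContDiffAt ℝ 2 (fun y => Real.log (ρ (e.symm y) + δ)) (e x) := by
    refine (((hρ e x hx).of_le (by norm_cast)).add contDiffAt_const).log ?_
    rw [hx.left_inv]
    have := h0 x
    linarith
  have h3 : ContDiffAt ℝ 2 (φ e) (e x) := (hφ.smooth e x hx).of_le (by norm_cast)
  have e1 : cHess (phiD φ m ρ δ e) (e x) = cHess (φ e) (e x) +
      (((m : ℝ)⁻¹ : ℝ) : ℂ) • hess (fun y => Real.log (ρ y + δ)) e (e x) := by
    unfold phiD hess
    rw [← C2.cHess_const_mul _ h2]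
    exact C2.cHess_add h3 (contDiffAt_const.mul h2)
  unfold thB at h1
  rw [e1]
  rw [hx.left_inv] at h1
  exact h1

lemma chiB_eq (θ α w : D.FormM n X) (s ε : ℝ) (e : Chart n X) (z : Cm n) :
    chiB θ α w (s + 1) ε e z = addF (addF (fun e z => θ e z + α e z) s θ) ε w e z := by
  simp only [chiB, addF]
  rw [Complex.ofReal_add, Complex.ofReal_one, add_smul, one_smul]
  abel

/-- `det` is monotone -/
lemma det_mono {A D : Matrix (Fin n) (Fin n) ℂ} (hA : A.PosDef) (hD : D.PosSemidef) {t : ℝ}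
    (ht : 0 ≤ t) : A.det.re ≤ ((t : ℂ) • D + A).det.re := by
  obtain ⟨T, U, η, hη, hUT, hTU, h2, hp, -⟩ := exists_pencil_frame hA hD
  have e0 := hp 0
  rw [Complex.ofReal_zero, zero_smul, zero_add] at e0
  rw [hp t, e0, det_frame, det_frame]
  refine mul_le_mul_of_nonneg_left ?_ (norm_det_pos hUT hTU).le
  refine Finset.prod_le_prod (fun k _ => ?_) fun k _ => ?_
  · rw [zero_mul, add_zero]; exact zero_le_one
  · rw [zero_mul, add_zero]
    have := mul_nonneg ht (hη k)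
    linarith

lemma isKahler_chiB (hw : IsKahler w) (hθ : IsClosedForm θ)
    (hα : IsClosedForm α) (hθ0 : ∀ e x, At e x → (θ e (e x)).PosSemidef)
    (hα0 : ∀ e x, At e x → (α e (e x)).PosSemidef) {s ε : ℝ} (hs : 0 ≤ s) (hε : 0 < ε) :
    IsKahler (chiB θ α w s ε) := by
  have h := isKahler_G hw hθ hα hθ0 hα0 hs hε
  have e1 : chiB θ α w s ε = addF (addF α s θ) ε w := by
    funext e z
    simp only [chiB, addF]
    abel
  rw [e1]
  exact h

/-- the volume of `s θ + α + ε w` -/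
lemma vol_chiB_le [T2Space X] [CompactSpace X] (hw : IsKahler w) (hθ : IsClosedForm θ)
    (hα : IsClosedForm α) (hθ0 : ∀ e x, At e x → (θ e (e x)).PosSemidef)
    (hα0 : ∀ e x, At e x → (α e (e x)).PosSemidef) {ν : ℕ}
    (hν : ∀ e x, At e x → (θ e (e x)).rank ≤ ν) {s ε : ℝ} (hs : 1 ≤ s) (hε : 0 < ε) (hε1 : ε ≤ 1) :
    J (chiB θ α w s ε) (fun _ => 1) ≤ s ^ ν * J (chiB θ α w 1 1) (fun _ => 1) := by
  rw [J_one, J_one, ← INT.intX_const_mul]
  have h1 := isKahler_chiB hw hθ hα hθ0 hα0 (s := 1) (ε := 1) zero_le_one one_pos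
  have h2 := isKahler_chiB hw hθ hα hθ0 hα0 (zero_le_one.trans hs) hε
  refine INT.intX_mono (dens_metric h2.toIsHermitian) ((dens_metric h1.toIsHermitian).const_mul _)
    fun e x hx => ?_
  have hwp := hw.posDef e x hx
  have hB : (α e (e x) + (ε : ℂ) • w e (e x)).PosDef :=
    Matrix.PosDef.posSemidef_add (hα0 e x hx) (hwp.smul (by exact_mod_cast hε))
  have h3 := det_pencil_le hB (hθ0 e x hx) (hν e x hx) hs
  have hA : ((1 : ℂ) • θ e (e x) + (α e (e x) + (ε : ℂ) • w e (e x))).PosDef := by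
    have := pencil_posDef hB (hθ0 e x hx) zero_le_one
    rwa [Complex.ofReal_one] at this
  have h4 := det_mono hA hwp.posSemidef (t := 1 - ε) (by linarith)
  have e1 : ((1 - ε : ℝ) : ℂ) • w e (e x) +
      ((1 : ℂ) • θ e (e x) + (α e (e x) + (ε : ℂ) • w e (e x))) = chiB θ α w 1 1 e (e x) := by
    simp only [chiB]
    rw [Complex.ofReal_sub, sub_smul, Complex.ofReal_one]
    abel
  rw [e1] at h4
  exact h3.trans (mul_le_mul_of_nonneg_left h4 (pow_nonneg (zero_le_one.trans hs) ν))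

/-- **Block XB**, for a function `u` -/
theorem coreB [T2Space X] [CompactSpace X] [ConnectedSpace X] (coh : CohPart)
    (mass : MassPart)
    (hw : IsKahler w) (hφ : IsCanonicalMetric φ) (hm : 0 < m) (hρ : SmoothFn (n := n) ρ)
    (h0 : ∀ x, 0 ≤ ρ x) {C : ℝ} (hC : CurvGe φ m ρ C w)
    (hθ : IsClosedForm θ) (hα : IsClosedForm α)
    (hθ0 : ∀ e x, At e x → (θ e (e x)).PosSemidef) (hα0 : ∀ e x, At e x → (α e (e x)).PosSemidef)
    {ν : ℕ} (hν : ∀ e x, At e x → (θ e (e x)).rank ≤ ν) {C' : ℝ}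
    (hgr : ∀ s : ℝ, 1 ≤ s → ∃ ε : ℝ, 0 < ε ∧ ε ≤ 1 ∧
      s * J (chiB θ α w s ε) (trX (chiB θ α w s ε) (curvB φ)) ≤
        C' * J (chiB θ α w s ε) (fun _ => 1))
    {q : ℝ} (hq : 0 ≤ q) {V : Set X} (hV : IsOpen V) {u : X → ℝ}
    (hS : ∀ (g Θ : D.FormM n X), IsKahler g → IsForm Θ →
      (∀ e x, At e x → (Θ e (e x)).PosSemidef) →
      (∀ e x, At e x → (Θ e (e x) + D.ric g e (e x)).PosSemidef) →
      ∃ S S0 : X → ℝ, SmoothFn (n := n) S ∧ SmoothFn (n := n) S0 ∧ (∀ x, 0 ≤ S x) ∧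
        (∀ x, 0 ≤ S0 x) ∧ (∀ x ∈ V, 0 < S x ∧ 0 < S0 x ∧ u x = Real.log (S x) - Real.log (S0 x)) ∧
        BochIneqT Θ g q S ∧ BochIneqT Θ g q S0)
    {e : Chart n X} {x : X} (hx : At e x) (hxV : x ∈ V) (hρx : 0 < ρ x)
    (hP : (θ e (e x) + α e (e x)).PosDef)
    (hrk : (θ e (e x)).rank = ν) (v : Fin n → ℂ) (hv : ∀ j, ∑ i, v i * θ e (e x) i j = 0) :
    ∑ i, xi u e (e x) i * v i = 0 := by
  by_contra hne
  obtain ⟨a, K, ha, hK, hest⟩ := core_est (β := fun e z => θ e z + α e z) coh mass hw hφ hm hρ h0 hC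
    hθ (hθ.add hα) hθ0 (fun e x hx => (hθ0 e x hx).add (hα0 e x hx)) hq hV hS hx hxV hρx hP hrk v hv
    hne
  set V1 : ℝ := J (chiB θ α w 1 1) (fun _ => 1) with hV1
  have h11 := isKahler_chiB hw hθ hα hθ0 hα0 (s := 1) (ε := 1) zero_le_one one_pos
  have hV10 : 0 ≤ V1 := J_nonneg h11.toIsHermitian fun _ => zero_le_one
  set M : ℝ := K * (|C'| * (2 ^ ν * V1)) with hM
  have hM0 : 0 ≤ M := by positivity
  -- the estimate for `s ≥ 1`
  have key : ∀ s : ℝ, 1 ≤ s → a * (s + 1) ≤ M := by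
    intro s hs
    have hs0 : 0 < s := lt_of_lt_of_le one_pos hs
    have hs1 : 1 ≤ s + 1 := by linarith
    obtain ⟨ε, hε, hε1, hle⟩ := hgr (s + 1) hs1
    have hK' := isKahler_chiB hw hθ hα hθ0 hα0 (zero_le_one.trans hs1) hε
    have e1 : addF (addF (fun e z => θ e z + α e z) s θ) ε w = chiB θ α w (s + 1) ε := by
      funext e z
      exact (chiB_eq θ α w s ε e z).symm
    have h1 := hest s ε hs0 hε
    rw [e1] at h1
    rw [J_trX (B := curvB φ) hK'.toIsHermitian (INT.isClosedForm_canonical hφ).form] at hle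
    have e2 : mixX (chiB θ α w (s + 1) ε) (curvB φ) = mixX (chiB θ α w (s + 1) ε) (cF φ) := rfl
    rw [e2] at hle
    set mx := mixX (chiB θ α w (s + 1) ε) (cF φ) with hmx
    have hvol := vol_chiB_le hw hθ hα hθ0 hα0 hν hs1 hε hε1
    have hJ0 : 0 ≤ J (chiB θ α w (s + 1) ε) (fun _ => 1) :=
      J_nonneg hK'.toIsHermitian fun _ => zero_le_one
    have h2 : (s + 1) * mx ≤ |C'| * (2 ^ ν * s ^ ν * V1) := by
      calc (s + 1) * mx ≤ C' * J (chiB θ α w (s + 1) ε) (fun _ => 1) := hle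
        _ ≤ |C'| * J (chiB θ α w (s + 1) ε) (fun _ => 1) :=
            mul_le_mul_of_nonneg_right (le_abs_self _) hJ0
        _ ≤ |C'| * ((s + 1) ^ ν * V1) := mul_le_mul_of_nonneg_left hvol (abs_nonneg _)
        _ ≤ |C'| * ((2 * s) ^ ν * V1) := by
            refine mul_le_mul_of_nonneg_left (mul_le_mul_of_nonneg_right ?_ hV10) (abs_nonneg _)
            exact pow_le_pow_left₀ (by linarith) (by linarith) ν
        _ = _ := by rw [mul_pow]
    have hsν : 0 < s ^ ν := pow_pos hs0 ν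
    have h3 : a * (s + 1) * s ^ ν ≤ M * s ^ ν := by
      calc a * (s + 1) * s ^ ν = (s + 1) * (a * s ^ ν) := by ring
        _ ≤ (s + 1) * (K * mx) := mul_le_mul_of_nonneg_left h1 (by linarith)
        _ = K * ((s + 1) * mx) := by ring
        _ ≤ K * (|C'| * (2 ^ ν * s ^ ν * V1)) := mul_le_mul_of_nonneg_left h2 hK
        _ = M * s ^ ν := by rw [hM]; ring
    exact le_of_mul_le_mul_right h3 hsν
  have h1 := key (max 1 (M / a)) (le_max_left _ _)
  have h2 : M / a ≤ max 1 (M / a) := le_max_right _ _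
  have h3 : M < a * (max 1 (M / a) + 1) := by
    have : M / a < max 1 (M / a) + 1 := by linarith
    rw [div_lt_iff₀ ha] at this
    linarith
  linarith

/-- **Block XB** -/
theorem xPartB_of (coh : CohPart) (mass : MassPart) : XPartB := by
  intro n q X _ _ _ _ _ _ w hw φ hφ Q hQ hQ0 m hm C hC θ α hθ hα hθ0 hα0 ν hν C' hgr τ0 τ1 hτ0 hτ1 hp
    e x hx hQx I hI hr hP v hv
  have a0 := hτ0.holo e x hx I
  have a1 := hτ1.holo e x hx I
  -- make the quotient nonzero at `x`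
  obtain ⟨c, hc⟩ : ∃ c : ℂ, τ1 e (e x) I + c * τ0 e (e x) I ≠ 0 := by
    by_cases h : τ1 e (e x) I = 0
    · exact ⟨1, by rw [h, zero_add, one_mul]; exact hI⟩
    · exact ⟨0, by rwa [zero_mul, add_zero]⟩
  set τ2 : D.Ten n q X := fun e z I => τ1 e z I + c * τ0 e z I with hτ2
  have h2 : D.IsTen q 0 τ2 := by
    constructor
    · intro e x hx I
      exact (hτ1.holo e x hx I).add (analyticAt_const.mul (hτ0.holo e x hx I))
    · intro e e' x hx hx' I
      have r0 := hτ0.change e e' x hx hx' I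
      have r1 := hτ1.change e e' x hx hx' I
      rw [pow_zero, one_mul] at r0 r1 ⊢
      simp only [hτ2]
      rw [r0, r1]
      simp only [D.tenPull, mul_add, Finset.sum_add_distrib, Finset.mul_sum]
      congr 1
      exact Finset.sum_congr rfl fun K _ => by ring
  have hp2 : ∀ e x, At e x → ∀ I J, τ0 e (e x) I * τ2 e (e x) J =
      τ0 e (e x) J * τ2 e (e x) I := by
    intro e x hx I J
    simp only [hτ2]
    linear_combination hp e x hx I J
  have hI2 : τ2 e (e x) I ≠ 0 := hc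
  have hmem : x ∈ nzSet τ0 ∩ nzSet τ2 := by
    refine ⟨(H212.mem_nzSet hτ0 hx).2 fun h => hI ?_, (H212.mem_nzSet h2 hx).2 fun h => hI2 ?_⟩
    · rw [h]; rfl
    · rw [h]; rfl
  have hcore := coreB coh mass hw hφ hm hQ hQ0 (curvGe_of hφ hQ hQ0 hC) hθ hα hθ0 hα0 hν hgr (q := q)
    (Nat.cast_nonneg q) (V := nzSet τ0 ∩ nzSet τ2)
    ((H212.isOpen_nzSet hτ0).inter (H212.isOpen_nzSet h2)) (u := uR w φ τ0 τ2)
    (fun g Θ hg hΘf hΘ hric => uR_structL hw hφ hτ0 h2 hp2 hg hΘf hΘ hric) hx hmem hQx hP hr v hv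
  simp only [xi_uR hw.toIsHermitian hφ hτ0 h2 hp2 hx hI hI2] at hcore
  have hne : τ2 e (e x) I / τ0 e (e x) I ≠ 0 := div_ne_zero hI2 hI
  have hsum : ∑ i, dz i (fun z => τ2 e z I / τ0 e z I) (e x) * v i = 0 := by
    have : (∑ i, dz i (fun z => τ2 e z I / τ0 e z I) (e x) * v i) =
        (τ2 e (e x) I / τ0 e (e x) I) * ∑ i, dz i (fun z => τ2 e z I / τ0 e z I) (e x) /
          (τ2 e (e x) I / τ0 e (e x) I) * v i := by
      rw [Finset.mul_sum]
      refine Finset.sum_congr rfl fun i _ => ?_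
      field_simp
    rw [this, hcore, mul_zero]
  have hf1 : DifferentiableAt ℂ (fun z => τ1 e z I / τ0 e z I) (e x) :=
    (a1.div a0 hI).differentiableAt
  have hf2 : DifferentiableAt ℂ (fun z => τ2 e z I / τ0 e z I) (e x) :=
    ((h2.holo e x hx I).div a0 hI).differentiableAt
  rw [← fderiv_eq_sum_dz hf2] at hsum
  rw [← hsum]
  have hev : (fun z => τ2 e z I / τ0 e z I) =ᶠ[𝓝 (e x)] fun z => τ1 e z I / τ0 e z I + c := by
    filter_upwards [a0.continuousAt.eventually_ne hI] with z hz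
    simp only [hτ2]
    field_simp
  rw [hev.fderiv_eq, fderiv_add_const]

end Vale.Agent.P281.H156.SB
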