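import Vale.Agent.P281.H156.SB.X
import Vale.Agent.P281.H227.GMC
import Vale.Agent.P281.H283.GME

/-! P281, theorem SB, block X. -/

namespace Vale.Agent.P281.H156.SB

/-- **Block XB** -/
theorem xPartB : Vale.Agent.P281.H713.SB.XPartB :=
  xPartB_of Vale.Agent.P281.H227.GMC.cohPart Vale.Agent.P281.H283.GME.massPart

end Vale.Agent.P281.H156.SB
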